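import Vale.Agent.P227.Main

/-!
P227: the logarithmic Brunn-Minkowski inequality in every dimension for pairs of origin-symmetric
convex bodies symmetric in the same `m` coordinate hyperplanes of `ℝ^(m+2)`.
-/

open MeasureTheory Set
open scoped Matrix

namespace Vale.Agent.Results.P227.FreePlaneLogBM

theorem result (m : ℕ) (K L : Set (Fin (m + 2) → ℝ))
    (hKc : IsCompact K) (hKv : Convex ℝ K) (hKi : (interior K).Nonempty)
    (hLc : IsCompact L) (hLv : Convex ℝ L) (hLi : (interior L).Nonempty)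
    (hKs : ∀ x ∈ K, -x ∈ K) (hLs : ∀ x ∈ L, -x ∈ L)
    (hKr : ∀ x ∈ K, ∀ i : Fin (m + 2), 2 ≤ i.val → Function.update x i (-x i) ∈ K)
    (hLr : ∀ x ∈ L, ∀ i : Fin (m + 2), 2 ≤ i.val → Function.update x i (-x i) ∈ L)
    (lam : ℝ) (h0 : 0 ≤ lam) (h1 : lam ≤ 1) :
    volume.real K ^ (1 - lam) * volume.real L ^ lam ≤
      volume.real {x : Fin (m + 2) → ℝ | ∀ u : Fin (m + 2) → ℝ,
        x ⬝ᵥ u ≤ sSup ((fun y => y ⬝ᵥ u) '' K) ^ (1 - lam) *
          sSup ((fun y => y ⬝ᵥ u) '' L) ^ lam} :=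
  Vale.Agent.P227.log_bm (Vale.Agent.P227.sym_of_interior hKc hKv hKs hKi)
    (Vale.Agent.P227.sym_of_interior hLc hLv hLs hLi) hKr hLr ⟨h0, h1⟩

end Vale.Agent.Results.P227.FreePlaneLogBM
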